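import Vale.Agent.P370Z.MB.Tens

/-!
# P370, many-body block: the upper bound by a trial state
-/

namespace Vale.Agent.P370Z

open MeasureTheory Finset

noncomputable section

namespace MB

section Gen

variable {L : Type} [Fintype L] [DecidableEq L] {N : ℕ} {f : L → P3 → ℝ}

omit [Fintype L] [DecidableEq L] in
theorem integrable_ff (hf : ∀ μ, C1c (f μ)) (μ ν : L) : Integrable fun y => f μ y * f ν y :=
  ((hf μ).1.continuous.mul (hf ν).1.continuous).integrable_of_hasCompactSupport
    (hf μ).2.mul_right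

theorem int_one (hf : ∀ μ, C1c (f μ)) (hon : ∀ μ ν, ip (f μ) (f ν) = idm μ ν) (i : Fin N)
    (w : P3 → ℝ) (g : L → P3 → ℝ) (hw : ∀ μ ν, Integrable fun y => w y * (g μ y * g ν y))
    (c : (Fin N → L) → ℝ) :
    ∫ x, w (x i) * wv (fun k μ => if k = i then g μ else f μ) c x ^ 2 =
      tens (one i fun μ ν => ∫ y, w y * (g μ y * g ν y)) c c := by
  have h := integral_wv (fun k => if k = i then w else fun _ => 1)
    (fun k μ => if k = i then g μ else f μ) c c fun k μ ν => by
      by_cases hk : k = i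
      · simpa only [if_pos hk] using hw μ ν
      · simpa only [if_neg hk, one_mul] using integrable_ff hf μ ν
  have h1 : ∀ x : Cf N, ∏ k, (if k = i then w else fun _ => (1 : ℝ)) (x k) = w (x i) := fun x => by
    rw [prod_eq_single i, if_pos rfl]
    · intro k _ hk
      rw [if_neg hk]
    · intro h
      exact absurd (mem_univ i) h
  simp only [h1, ← sq] at h
  rw [h]
  congr 1
  funext k μ ν
  unfold one
  by_cases hk : k = i
  · simp only [if_pos hk]
  · simp only [if_neg hk, one_mul]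
    exact hon μ ν

theorem int_two (hf : ∀ μ, C1c (f μ)) (hon : ∀ μ ν, ip (f μ) (f ν) = idm μ ν) {i j : Fin N}
    (hij : i ≠ j) (w w' : P3 → ℝ) (hw : ∀ μ ν, Integrable fun y => w y * (f μ y * f ν y))
    (hw' : ∀ μ ν, Integrable fun y => w' y * (f μ y * f ν y)) (c : (Fin N → L) → ℝ) :
    ∫ x, w (x i) * w' (x j) * wv (fun _ => f) c x ^ 2 =
      tens (two i j (fun μ ν => ∫ y, w y * (f μ y * f ν y))
        fun μ ν => ∫ y, w' y * (f μ y * f ν y)) c c := by
  have h := integral_wv (fun k => if k = i then w else if k = j then w' else fun _ => 1)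
    (fun _ => f) c c fun k μ ν => by
      split_ifs
      · exact hw μ ν
      · exact hw' μ ν
      · simpa only [one_mul] using integrable_ff hf μ ν
  have h1 : ∀ x : Cf N, ∏ k, (if k = i then w else if k = j then w' else fun _ => (1 : ℝ)) (x k) =
      w (x i) * w' (x j) := fun x => by
    rw [prod_eq_pair hij, if_pos rfl, if_neg hij.symm, if_pos rfl, prod_eq_one, mul_one]
    intro k hk
    rw [if_neg (ne_of_mem_erase (mem_of_mem_erase hk)), if_neg (ne_of_mem_erase hk)]
  simp only [h1, ← sq] at h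
  rw [h]
  congr 1
  funext k μ ν
  unfold two
  split_ifs
  · rfl
  · rfl
  · simp only [one_mul]
    exact hon μ ν

theorem int_norm (hf : ∀ μ, C1c (f μ)) (hon : ∀ μ ν, ip (f μ) (f ν) = idm μ ν)
    (c : (Fin N → L) → ℝ) : ∫ x, wv (fun _ => f) c x ^ 2 = nsqT c := by
  have h := integral_wv (fun _ _ => 1) (fun _ : Fin N => f) c c fun _ μ ν => by
    simpa only [one_mul] using integrable_ff hf μ ν
  simp only [prod_const_one, one_mul, ← sq] at h
  rw [h, ← tens_idm]
  congr 1
  funext k μ ν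
  exact hon μ ν

/-- The one-body part of the energy. -/
theorem int_qb (hf : ∀ μ, C1c (f μ)) (hon : ∀ μ ν, ip (f μ) (f ν) = idm μ ν) {V : P3 → ℝ}
    (hV : PotOK V) (i : Fin N) (c : (Fin N → L) → ℝ) :
    (1 / 2) * (∑ k, ∫ x, pdN i k (wv (fun _ => f) c) x ^ 2) +
      ∫ x, V (x i) * wv (fun _ => f) c x ^ 2 =
      tens (one i fun μ ν => qb V (f μ) (f ν)) c c := by
  have h1 : ∀ k, ∫ x, pdN i k (wv (fun _ => f) c) x ^ 2 =
      tens (one i fun μ ν => ∫ y, pd k (f μ) y * pd k (f ν) y) c c := fun k => by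
    rw [pdN_wv fun _ μ => (hf μ).1.differentiable one_ne_zero]
    have := int_one hf hon i (fun _ => 1) (fun μ => pd k (f μ)) (fun μ ν => by
      simp only [one_mul]
      exact ((continuous_pd (hf μ) k).mul
        (continuous_pd (hf ν) k)).integrable_of_hasCompactSupport
          (hasCompactSupport_pd (hf μ) k).mul_right) c
    simpa only [one_mul] using this
  have h2 := int_one hf hon i V f (fun μ ν => integrable_pot1_cc hV
    ((hf μ).1.continuous.mul (hf ν).1.continuous) (hf μ).2.mul_right) c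
  simp only [ite_self] at h2
  rw [h2]
  simp only [h1, tens_one, qb, kin1]
  rw [sum_comm, mul_sum, ← sum_add_distrib]
  refine sum_congr rfl fun l _ => ?_
  rw [sum_comm, mul_sum, ← sum_add_distrib]
  refine sum_congr rfl fun l' _ => ?_
  rw [← mul_sum, ← sum_mul]
  ring

/-- The remainder of the repulsion. -/
theorem int_rem (hf : ∀ μ, C1c (f μ)) (hon : ∀ μ ν, ip (f μ) (f ν) = idm μ ν) {i j : Fin N}
    (hij : i ≠ j) {ϱ : P3 → P3 → ℝ} (hm : Measurable fun p : P3 × P3 => ϱ p.1 p.2)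
    (h0 : ∀ x y, 0 ≤ ϱ x y) (hle : ∀ x y, ϱ x y ≤ 1 / nrm (x - y)) {η : ℝ} (hη : 0 ≤ η)
    (c : (Fin N → L) → ℝ)
    (hc : ∀ l, c l ≠ 0 → ∫ p : P3 × P3, f (l i) p.1 ^ 2 * f (l j) p.2 ^ 2 * ϱ p.1 p.2 ≤ η) :
    ∫ x, ϱ (x i) (x j) * wv (fun _ => f) c x ^ 2 ≤ (Fintype.card L : ℝ) ^ 2 * η * nsqT c := by
  have hint : ∀ μ μ' ν ν', Integrable fun p : P3 × P3 =>
      ϱ p.1 p.2 * (f μ p.1 * f μ' p.1 * (f ν p.2 * f ν' p.2)) := fun μ μ' ν ν' => by
    have h1 := integrable_coulomb2_cc ((hf μ).1.continuous.mul (hf μ').1.continuous)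
      (hf μ).2.mul_right ((hf ν).1.continuous.mul (hf ν').1.continuous) (hf ν).2.mul_right
    refine Integrable.mono h1 ?_ (Filter.Eventually.of_forall fun p => ?_)
    · refine hm.aestronglyMeasurable.mul (Continuous.aestronglyMeasurable ?_)
      have := fun μ => (hf μ).1.continuous
      fun_prop
    · simp only [Pi.mul_apply, norm_mul]
      refine mul_le_mul_of_nonneg_right ?_ (by positivity)
      rw [Real.norm_of_nonneg (h0 _ _), Real.norm_of_nonneg (inv_nrm_nonneg _)]
      exact hle _ _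
  have hsplit : ∀ (l l' : Fin N → L) (x : Cf N),
      ϱ (x i) (x j) * ∏ k, f (l k) (x k) * f (l' k) (x k) =
      (fun p : P3 × P3 => ϱ p.1 p.2 * (f (l i) p.1 * f (l' i) p.1 * (f (l j) p.2 * f (l' j) p.2)))
        (x i, x j) * ∏ k ∈ (univ.erase i).erase j, f (l k) (x k) * f (l' k) (x k) := by
    intro l l' x
    rw [prod_eq_pair hij]
    ring
  have h1 := integral_wv_of (fun x : Cf N => ϱ (x i) (x j)) (fun _ => f) c c fun l l' => by
    simp only [hsplit]
    exact integrable_pair hij (hint _ _ _ _) (a := fun k y => f (l k) y * f (l' k) y)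
      fun k _ _ => integrable_ff hf _ _
  simp only [← sq] at h1
  rw [h1]
  have h2 : ∀ l l' : Fin N → L, c l * c l' *
      ∫ x : Cf N, ϱ (x i) (x j) * ∏ k, f (l k) (x k) * f (l' k) (x k) ≤
      |c l| * |c l'| * (η * 1 * ∏ k ∈ (univ.erase i).erase j, idm (l k) (l' k)) := by
    intro l l'
    have hP : 0 ≤ ∏ k ∈ (univ.erase i).erase j, idm (l k) (l' k) :=
      prod_nonneg fun _ _ => idm_nonneg _ _
    by_cases hl : c l = 0
    · simp [hl]
    by_cases hl' : c l' = 0
    · simp [hl']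
    have h9 : ∫ x : Cf N, ϱ (x i) (x j) * ∏ k, f (l k) (x k) * f (l' k) (x k) = _ :=
      (integral_congr_ae (Filter.Eventually.of_forall (hsplit l l'))).trans
        (integral_pair hij (fun p : P3 × P3 =>
          ϱ p.1 p.2 * (f (l i) p.1 * f (l' i) p.1 * (f (l j) p.2 * f (l' j) p.2)))
          fun k y => f (l k) y * f (l' k) y)
    rw [h9]
    have h3 : ∏ k ∈ (univ.erase i).erase j, ∫ y, f (l k) y * f (l' k) y =
        ∏ k ∈ (univ.erase i).erase j, idm (l k) (l' k) := prod_congr rfl fun k _ => hon _ _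
    rw [h3]
    refine (le_abs_self _).trans ?_
    rw [abs_mul, abs_mul, abs_mul, abs_of_nonneg hP, mul_one]
    refine mul_le_mul_of_nonneg_left (mul_le_mul_of_nonneg_right ?_ hP) (by positivity)
    have h4 : ∀ μ ν, Integrable fun p : P3 × P3 => f μ p.1 ^ 2 * f ν p.2 ^ 2 * ϱ p.1 p.2 :=
      fun μ ν => (hint μ μ ν ν).congr (Filter.Eventually.of_forall fun p => by ring)
    refine abs_integral_le_integral_abs.trans ?_
    have h5 := integral_mono (hint (l i) (l' i) (l j) (l' j)).abs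
      (((h4 (l i) (l j)).add (h4 (l' i) (l' j))).div_const 2) fun p => by
        simp only [Pi.add_apply]
        rw [abs_mul, abs_of_nonneg (h0 _ _)]
        have h6 : |f (l i) p.1 * f (l' i) p.1 * (f (l j) p.2 * f (l' j) p.2)| ≤
            (f (l i) p.1 ^ 2 * f (l j) p.2 ^ 2 + f (l' i) p.1 ^ 2 * f (l' j) p.2 ^ 2) / 2 := by
          rw [abs_le]
          constructor
          · nlinarith [sq_nonneg (f (l i) p.1 * f (l j) p.2 + f (l' i) p.1 * f (l' j) p.2)]
          · nlinarith [sq_nonneg (f (l i) p.1 * f (l j) p.2 - f (l' i) p.1 * f (l' j) p.2)]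
        nlinarith [mul_le_mul_of_nonneg_left h6 (h0 p.1 p.2)]
    refine h5.trans ?_
    simp only [Pi.add_apply]
    rw [integral_div, integral_add (h4 _ _) (h4 _ _)]
    linarith [hc l hl, hc l' hl']
  refine (sum_le_sum fun l _ => sum_le_sum fun l' _ => h2 l l').trans ?_
  have h7 := abs_tens_two_le hij (fun _ _ : L => η) (fun _ _ => (1 : ℝ)) (ε := η) (ε' := 1)
    (fun _ _ => (abs_of_nonneg hη).le) (fun _ _ => abs_one.le) fun l => |c l|
  rw [tens_two hij] at h7
  have h8 : nsqT (fun l => |c l|) = nsqT c := by simp only [nsqT, sq_abs]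
  rw [h8, mul_one] at h7
  simpa only [mul_one] using (le_abs_self _).trans h7

omit [Fintype L] [DecidableEq L] in
theorem integrable_ind (hf : ∀ μ, C1c (f μ)) {A : Set P3} (hA : MeasurableSet A) (μ ν : L) :
    Integrable fun y => A.indicator (1 : P3 → ℝ) y * (f μ y * f ν y) := by
  refine ((integrable_ff hf μ ν).indicator hA).congr (Filter.Eventually.of_forall fun y => ?_)
  by_cases h : y ∈ A
  · simp [Set.indicator_of_mem h]
  · simp [Set.indicator_of_notMem h]

omit [Fintype L] [DecidableEq L] in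
theorem integral_ind {A : Set P3} (hA : MeasurableSet A) (u : P3 → ℝ) :
    ∫ y, A.indicator (1 : P3 → ℝ) y * u y = ∫ y in A, u y := by
  rw [← integral_indicator hA]
  refine integral_congr_ae (Filter.Eventually.of_forall fun y => ?_)
  by_cases h : y ∈ A
  · simp [Set.indicator_of_mem h]
  · simp [Set.indicator_of_notMem h]

theorem int_contact (hf : ∀ μ, C1c (f μ)) (hon : ∀ μ ν, ip (f μ) (f ν) = idm μ ν) {i j : Fin N}
    (hij : i ≠ j) {A A' : Set P3} (hA : MeasurableSet A) (hA' : MeasurableSet A')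
    (c : (Fin N → L) → ℝ) :
    ∫ x : Cf N, A.indicator 1 (x i) * A'.indicator 1 (x j) * wv (fun _ => f) c x ^ 2 =
      tens (two i j (fun μ ν => ∫ y in A, f μ y * f ν y) fun μ ν => ∫ y in A', f μ y * f ν y)
        c c := by
  rw [int_two hf hon hij _ _ (integrable_ind hf hA) (integrable_ind hf hA')]
  simp only [integral_ind hA, integral_ind hA']

theorem integrable_contact {i j : Fin N} {A A' : Set P3} (hA : MeasurableSet A)
    (hA' : MeasurableSet A') {F : Cf N → ℝ} (hF : Integrable F) :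
    Integrable fun x : Cf N => A.indicator 1 (x i) * A'.indicator 1 (x j) * F x := by
  refine Integrable.mono hF ?_ (Filter.Eventually.of_forall fun x => ?_)
  · refine AEStronglyMeasurable.mul (Measurable.aestronglyMeasurable ?_) hF.aestronglyMeasurable
    exact ((measurable_one.indicator hA).comp (measurable_pi_apply i)).mul
      ((measurable_one.indicator hA').comp (measurable_pi_apply j))
  · by_cases h : x i ∈ A <;> by_cases h' : x j ∈ A' <;> simp [h, h']

theorem sum_Ioi_symm (T : Fin N → Fin N → ℝ) :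
    ∑ i, ∑ j ∈ Ioi i, (T i j + T j i) = ∑ i, ∑ j ∈ univ.erase i, T i j := by
  have h1 : ∀ i : Fin N, ∑ j ∈ univ.erase i, T i j = ∑ j ∈ Ioi i, T i j + ∑ j ∈ Iio i, T i j := by
    intro i
    rw [← sum_union (disjoint_Ioi_Iio i)]
    congr 1
    ext j
    simp only [mem_erase, mem_univ, and_true, mem_union, mem_Ioi, mem_Iio, ne_eq]
    omega
  simp only [h1, sum_add_distrib]
  congr 1
  exact (sum_comm' fun i j => by simp).symm

end Gen

section Trial

variable {B C D Ec : Type} [Fintype C] [DecidableEq C] [Fintype D] [DecidableEq D] [Fintype Ec]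

/-- The one-body part for a trial tensor. -/
theorem one_body_le {N : ℕ} {V : P3 → ℝ} {f : C ⊕ D → P3 → ℝ} {r : C → P3 → ℝ}
    {E Tc γ δ τ : ℝ} (ob : OB V f r E Tc γ δ τ) (hδ : 0 ≤ δ) (c : (Fin N → C ⊕ D) → ℝ)
    (slot : ∀ l i μ, c l ≠ 0 → c (Function.update l i μ) ≠ 0 →
      l i = μ ∨ ((l i).isRight = true ∧ μ.isRight = true)) (i : Fin N) :
    tens (one i fun μ ν => qb V (f μ) (f ν)) c c ≤
      ∑ l, c l ^ 2 * (E - if (l i).isLeft = true then Tc else 0) +
        Fintype.card (C ⊕ D) * δ * nsqT c := by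
  classical
  let dg : C ⊕ D → ℝ := fun μ => if μ.isLeft = true then qb V (f μ) (f μ) - δ else E
  let Er : C ⊕ D → C ⊕ D → ℝ := fun μ ν =>
    if μ.isRight = true ∧ ν.isRight = true then qb V (f μ) (f ν) - E * idm μ ν else δ * idm μ ν
  have hEr : ∀ μ ν, |Er μ ν| ≤ δ := by
    rintro (a | a) (b | b)
    · simp only [Er, Sum.isRight_inl, Bool.false_eq_true, and_self, if_false, idm]
      split_ifs <;> simp [abs_of_nonneg hδ, hδ]
    · simp [Er, idm, hδ]
    · simp [Er, idm, hδ]
    · have := ob.up_val a b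
      simpa [Er, idm] using this
  have h1 : tens (one i fun μ ν => qb V (f μ) (f ν)) c c =
      ∑ l, c l ^ 2 * dg (l i) + tens (one i Er) c c := by
    rw [tens_one, tens_one, ← sum_add_distrib]
    refine sum_congr rfl fun l _ => ?_
    have h2 : c l ^ 2 * dg (l i) = ∑ l', c l * c l' * (dg (l i) * ∏ k, idm (l k) (l' k)) := by
      simp only [prod_idm, mul_ite, mul_one, mul_zero, sum_ite_eq, mem_univ, if_true, sq]
    rw [h2, ← sum_add_distrib]
    refine sum_congr rfl fun l' _ => ?_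
    rw [← mul_prod_erase univ _ (mem_univ i)]
    by_cases hl : c l = 0
    · simp [hl]
    by_cases hl' : c l' = 0
    · simp [hl']
    by_cases hP : ∏ k ∈ univ.erase i, idm (l k) (l' k) = 0
    · simp [hP]
    have h3 : l' = Function.update l i (l' i) := by
      funext k
      by_cases hk : k = i
      · subst hk
        simp
      · rw [Function.update_of_ne hk]
        by_contra hne
        exact hP (prod_eq_zero (mem_erase.2 ⟨hk, mem_univ k⟩) (if_neg (Ne.symm hne)))
    have h4 : qb V (f (l i)) (f (l' i)) = dg (l i) * idm (l i) (l' i) + Er (l i) (l' i) := by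
      rcases slot l i (l' i) hl (h3 ▸ hl') with h | ⟨h, h'⟩
      · rw [← h]
        rcases l i with a | a
        · simp [dg, Er, idm]
        · simp [dg, Er, idm]
      · have h5 : ¬ (l i).isLeft = true := by
          rw [← Sum.not_isRight, h]
          simp
        simp only [dg, Er, if_neg h5, if_pos (And.intro h h')]
        ring
    rw [h4]
    ring
  rw [h1]
  refine add_le_add (sum_le_sum fun l _ => mul_le_mul_of_nonneg_left ?_ (sq_nonneg _))
    ((le_abs_self _).trans (abs_tens_one_le i Er hEr c))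
  rcases l i with a | a
  · have := ob.up_core a
    simp only [dg, Sum.isLeft_inl, if_true]
    linarith
  · simp [dg]

omit [Fintype C] [DecidableEq C] [Fintype D] [DecidableEq D] [Fintype Ec] in
theorem abs_outer_le {U : D → ℝ} (hU : ∀ d, |U d| ≤ 1) (μ ν : C ⊕ D) :
    |outer (ext0 C U) μ ν| ≤ 1 := by
  have h : ∀ μ, |ext0 C U μ| ≤ 1 := by
    rintro (a | a)
    · simp [ext0]
    · exact hU a
  rw [outer, abs_mul]
  exact mul_le_one₀ (h μ) (abs_nonneg _) (h ν)

/-- The repulsion for a trial tensor. -/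
theorem rep_le {N : ℕ} {f : C ⊕ D → P3 → ℝ} (hf : ∀ μ, C1c (f μ))
    (hon : ∀ μ ν, ip (f μ) (f ν) = idm μ ν) {blk : D → B} {U W : Ec → D → ℝ} {A A' : Ec → Set P3}
    {ϱ : P3 → P3 → ℝ} {κlo κhi ε η : ℝ} (ct : CT f blk U W A A' ϱ κlo κhi ε η)
    (hU : ∀ e d, |U e d| ≤ 1) (hW : ∀ e d, |W e d| ≤ 1) (hκ : 0 ≤ κhi) (hε1 : ε ≤ 1)
    (hη : 0 ≤ η) (c : (Fin N → C ⊕ D) → ℝ)
    (sep : ∀ l, c l ≠ 0 → ∀ i j, i ≠ j → ¬ SameBlk blk (l i) (l j)) :
    ∑ i, ∑ j ∈ Ioi i, ∫ x : Cf N, 1 / nrm (x i - x j) * wv (fun _ => f) c x ^ 2 ≤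
      κhi * (HF (fun e => ext0 C (U e)) (fun e => ext0 C (W e)) c +
        ∑ _e : Ec, ∑ i : Fin N, ∑ _j ∈ univ.erase i,
          3 * (Fintype.card (C ⊕ D) : ℝ) ^ 2 * ε * nsqT c) +
      ∑ i : Fin N, ∑ _j ∈ Ioi i, (Fintype.card (C ⊕ D) : ℝ) ^ 2 * η * nsqT c := by
  have hΨ : C1c (wv (fun _ : Fin N => f) c) := c1c_wv (fun _ μ => hf μ) c
  have hc : Continuous fun x => wv (fun _ : Fin N => f) c x ^ 2 := hΨ.1.continuous.pow 2
  have hs : HasCompactSupport fun x => wv (fun _ : Fin N => f) c x ^ 2 := by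
    simp only [sq]
    exact hΨ.2.mul_right
  have hI : Integrable fun x => wv (fun _ : Fin N => f) c x ^ 2 :=
    hc.integrable_of_hasCompactSupport hs
  let T : Ec → Fin N → Fin N → ℝ := fun e i j =>
    ∫ x : Cf N, (A e).indicator 1 (x i) * (A' e).indicator 1 (x j) * wv (fun _ => f) c x ^ 2
  have h1 : ∀ i j : Fin N, i ≠ j → ∫ x : Cf N, 1 / nrm (x i - x j) * wv (fun _ => f) c x ^ 2 ≤
      κhi * ∑ e, (T e i j + T e j i) + (Fintype.card (C ⊕ D) : ℝ) ^ 2 * η * nsqT c := by
    intro i j hij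
    have hϱ : Integrable fun x : Cf N => ϱ (x i) (x j) * wv (fun _ => f) c x ^ 2 := by
      refine Integrable.mono (integrable_coulomb_cc hij hc hs) ?_
        (Filter.Eventually.of_forall fun x => ?_)
      · exact (ct.meas.comp ((measurable_pi_apply i).prodMk
          (measurable_pi_apply j))).aestronglyMeasurable.mul hc.aestronglyMeasurable
      · simp only [norm_mul]
        refine mul_le_mul_of_nonneg_right ?_ (by positivity)
        rw [Real.norm_of_nonneg (ct.nonneg _ _), Real.norm_of_nonneg (inv_nrm_nonneg _)]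
        exact ct.le _ _
    have he : ∀ e, Integrable fun x : Cf N =>
        (A e).indicator 1 (x i) * (A' e).indicator 1 (x j) * wv (fun _ => f) c x ^ 2 +
        (A e).indicator 1 (x j) * (A' e).indicator 1 (x i) * wv (fun _ => f) c x ^ 2 :=
      fun e => (integrable_contact (ct.measA e) (ct.measA' e) hI).add
        (integrable_contact (ct.measA e) (ct.measA' e) hI)
    have h2 := integral_mono (integrable_coulomb_cc hij hc hs)
      (((integrable_finsetSum univ fun e _ => he e).const_mul κhi).add hϱ) fun x => by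
        have h3 := mul_le_mul_of_nonneg_right (ct.hi (x i) (x j))
          (sq_nonneg (wv (fun _ : Fin N => f) c x))
        refine h3.trans (le_of_eq ?_)
        simp only [Pi.add_apply, contact, add_mul, mul_assoc, sum_mul]
        congr 2
        exact sum_congr rfl fun e _ => by ring
    refine h2.trans ?_
    simp only [Pi.add_apply]
    rw [integral_add ((integrable_finsetSum univ fun e _ => he e).const_mul κhi) hϱ,
      integral_const_mul, integral_finsetSum _ fun e _ => he e]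
    refine add_le_add (le_of_eq ?_) (int_rem hf hon hij ct.meas ct.nonneg ct.le hη c
      fun l hl => ct.rem _ _ (sep l hl i j hij))
    congr 1
    exact sum_congr rfl fun e _ => integral_add
      (integrable_contact (ct.measA e) (ct.measA' e) hI)
      (integrable_contact (ct.measA e) (ct.measA' e) hI)
  refine (sum_le_sum fun i _ => sum_le_sum fun j hj => h1 i j (mem_Ioi.1 hj).ne).trans ?_
  simp only [sum_add_distrib, ← mul_sum]
  refine add_le_add (mul_le_mul_of_nonneg_left ?_ hκ) le_rfl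
  have h4 : ∑ i, ∑ j ∈ Ioi i, ∑ e, T e i j + ∑ i, ∑ j ∈ Ioi i, ∑ e, T e j i =
      ∑ e, ∑ i, ∑ j ∈ univ.erase i, T e i j := by
    rw [← sum_add_distrib]
    simp only [← sum_add_distrib]
    rw [sum_congr rfl fun i _ => sum_congr rfl fun j _ => sum_add_distrib,
      sum_Ioi_symm fun i j => ∑ e, T e i j, sum_comm]
    exact sum_congr rfl fun i _ => sum_comm
  rw [h4, HF]
  simp only [mul_sum, ← sum_add_distrib]
  refine sum_le_sum fun e _ => sum_le_sum fun i _ => sum_le_sum fun j hj => ?_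
  have hij : i ≠ j := (ne_of_mem_erase hj).symm
  have h5 := abs_tens_two_sub_le hij (fun μ ν => ∫ y in A e, f μ y * f ν y)
    (fun μ ν => ∫ y in A' e, f μ y * f ν y) (outer (ext0 C (U e))) (outer (ext0 C (W e))) hε1
    (ct.contA e) (ct.contA' e) (abs_outer_le (hU e)) (abs_outer_le (hW e)) c
  have h6 : T e i j = _ := int_contact hf hon hij (ct.measA e) (ct.measA' e) c
  rw [h6]
  linarith [(abs_le.1 h5).2]

end Trial

end MB

open MB

variable {B C D Ec : Type} [Fintype B] [DecidableEq B] [Fintype C] [DecidableEq C] [Fintype D]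
  [DecidableEq D] [Fintype Ec]

omit [Fintype B] [DecidableEq B] in
theorem mb_up (N : ℕ) (V : P3 → ℝ) (hV : PotOK V)
    (f : C ⊕ D → P3 → ℝ) (r : C → P3 → ℝ) (E Tc γ δ τ : ℝ) (ob : OB V f r E Tc γ δ τ)
    (blk : D → B) (U W : Ec → D → ℝ) (A A' : Ec → Set P3) (ϱ : P3 → P3 → ℝ) (κlo κhi ε η : ℝ)
    (ct : CT f blk U W A A' ϱ κlo κhi ε η) (a : ℝ) (c : Sp N → (Fin N → C ⊕ D) → ℝ)
    (mf : MFTrial N C blk U W a c) (hU : ∀ e d, |U e d| ≤ 1) (hW : ∀ e d, |W e d| ≤ 1)
    (g S : ℝ) (hS1 : 1 ≤ S) (hSN : (N : ℝ) ≤ S) (hSL : (Fintype.card C + Fintype.card D : ℝ) ≤ S)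
    (hSE : (Fintype.card Ec : ℝ) ≤ S) (hg : 0 < g) (hκ : 0 ≤ κhi) (hδ : 0 ≤ δ)
    (hε : 0 ≤ ε) (hε1 : ε ≤ 1) (hη : 0 ≤ η) :
    ∃ Ψ : Sp N → Cf N → ℝ, Adm Ψ ∧ 0 < nsq Ψ ∧
      en V g Ψ ≤ (N * E - 2 * Fintype.card C * Tc + g * κhi * a +
        (S ^ 2 * δ + 3 * g * κhi * S ^ 5 * ε + g * S ^ 4 * η)) * nsq Ψ := by
  have hn : nsq (fun s => wv (fun _ : Fin N => f) (c s)) = ∑ s, nsqT (c s) :=
    sum_congr rfl fun s _ => int_norm ob.f_c1c ob.on (c s)
  refine ⟨fun s => wv (fun _ => f) (c s), ⟨fun s => c1c_wv (fun _ μ => ob.f_c1c μ) _,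
    fun π s x => wv_perm f (c s) (c (s ∘ π)) π _ (mf.anti π s) x⟩, hn ▸ mf.pos, ?_⟩
  rw [hn, mul_sum]
  refine sum_le_sum fun s _ => ?_
  have hΨ : C1c (wv (fun _ : Fin N => f) (c s)) := c1c_wv (fun _ μ => ob.f_c1c μ) _
  have hc : Continuous fun x => wv (fun _ : Fin N => f) (c s) x ^ 2 := hΨ.1.continuous.pow 2
  have hs : HasCompactSupport fun x => wv (fun _ : Fin N => f) (c s) x ^ 2 := by
    simp only [sq]
    exact hΨ.2.mul_right
  rw [integral_pot_rep hV g hc hs, ← add_assoc, mul_sum, ← sum_add_distrib]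
  simp only [int_qb ob.f_c1c ob.on hV]
  have hL : (Fintype.card (C ⊕ D) : ℝ) ≤ S := by
    rw [Fintype.card_sum]
    exact_mod_cast hSL
  have hL0 : (0 : ℝ) ≤ Fintype.card (C ⊕ D) := Nat.cast_nonneg _
  have hq := nsqT_nonneg (c s)
  have hS0 : 0 ≤ S := zero_le_one.trans hS1
  have h1 : ∑ i, tens (one i fun μ ν => qb V (f μ) (f ν)) (c s) (c s) ≤
      (N * E - 2 * Fintype.card C * Tc + S ^ 2 * δ) * nsqT (c s) := by
    refine (sum_le_sum fun i _ => one_body_le ob hδ (c s) (mf.slot s) i).trans ?_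
    rw [sum_add_distrib, sum_comm, add_mul]
    refine add_le_add (le_of_eq ?_) ?_
    · rw [nsqT, mul_sum]
      refine sum_congr rfl fun l _ => ?_
      by_cases hl : c s l = 0
      · simp [hl]
      rw [← mul_sum, sum_sub_distrib, ← sum_filter, sum_const, sum_const, mf.full s l hl]
      simp only [card_univ, Fintype.card_fin, nsmul_eq_mul, Nat.cast_mul, Nat.cast_ofNat]
      ring
    · simp only [sum_const, card_univ, Fintype.card_fin, nsmul_eq_mul]
      calc (N : ℝ) * (Fintype.card (C ⊕ D) * δ * nsqT (c s)) ≤ S * (S * δ * nsqT (c s)) := by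
            gcongr
        _ = _ := by ring
  have h2 := rep_le ob.f_c1c ob.on ct hU hW hκ hε1 hη (c s) (mf.sep s)
  have h3 : ∑ _e : Ec, ∑ i : Fin N, ∑ _j ∈ univ.erase i,
      3 * (Fintype.card (C ⊕ D) : ℝ) ^ 2 * ε * nsqT (c s) ≤ 3 * S ^ 5 * ε * nsqT (c s) := by
    have h4 : ∀ i : Fin N, ∑ _j ∈ univ.erase i,
        3 * (Fintype.card (C ⊕ D) : ℝ) ^ 2 * ε * nsqT (c s) ≤ S * (3 * S ^ 2 * ε * nsqT (c s)) := by
      intro i
      rw [sum_const, nsmul_eq_mul]
      have : ((univ.erase i).card : ℝ) ≤ S := by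
        refine le_trans ?_ hSN
        exact_mod_cast (card_le_univ _).trans (Fintype.card_fin N).le
      gcongr
    refine (sum_le_sum fun e _ => sum_le_sum fun i _ => h4 i).trans ?_
    simp only [sum_const, card_univ, Fintype.card_fin, nsmul_eq_mul]
    calc (Fintype.card Ec : ℝ) * (N * (S * (3 * S ^ 2 * ε * nsqT (c s)))) ≤
        S * (S * (S * (3 * S ^ 2 * ε * nsqT (c s)))) := by gcongr
      _ = _ := by ring
  have h5 : ∑ i : Fin N, ∑ _j ∈ Ioi i, (Fintype.card (C ⊕ D) : ℝ) ^ 2 * η * nsqT (c s) ≤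
      S ^ 4 * η * nsqT (c s) := by
    have h4 : ∀ i : Fin N, ∑ _j ∈ Ioi i,
        (Fintype.card (C ⊕ D) : ℝ) ^ 2 * η * nsqT (c s) ≤ S * (S ^ 2 * η * nsqT (c s)) := by
      intro i
      rw [sum_const, nsmul_eq_mul]
      have : ((Ioi i).card : ℝ) ≤ S := by
        refine le_trans ?_ hSN
        exact_mod_cast (card_le_univ _).trans (Fintype.card_fin N).le
      gcongr
    refine (sum_le_sum fun i _ => h4 i).trans ?_
    simp only [sum_const, card_univ, Fintype.card_fin, nsmul_eq_mul]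
    calc (N : ℝ) * (S * (S ^ 2 * η * nsqT (c s))) ≤ S * (S * (S ^ 2 * η * nsqT (c s))) := by
          gcongr
      _ = _ := by ring
  have h6 := mul_le_mul_of_nonneg_left (add_le_add (mf.up s) h3) hκ
  have h7 := mul_le_mul_of_nonneg_left ((h2.trans (add_le_add h6 h5))) hg.le
  nlinarith

end

end Vale.Agent.P370Z
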