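import Vale.Agent.P370Z.Basic

/-!
# P370, many-body block: integrability lemmas and product integrals
-/

namespace Vale.Agent.P370Z.MB

open MeasureTheory Finset

noncomputable section

/-! ### The Euclidean length -/

theorem continuous_nrm : Continuous nrm := by
  unfold nrm
  fun_prop

theorem nrm_nonneg (x : P3) : 0 ≤ nrm x := Real.sqrt_nonneg _

theorem norm_le_nrm (x : P3) : ‖x‖ ≤ nrm x := by
  refine (pi_norm_le_iff_of_nonneg (nrm_nonneg x)).2 fun k => ?_
  rw [Real.norm_eq_abs, nrm]
  refine Real.abs_le_sqrt ?_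
  exact single_le_sum (f := fun k => x k ^ 2) (fun k _ => sq_nonneg _) (mem_univ k)

theorem inv_nrm_nonneg (x : P3) : 0 ≤ 1 / nrm x := one_div_nonneg.2 (nrm_nonneg x)

theorem measurable_inv_nrm : Measurable fun x : P3 => 1 / nrm x :=
  measurable_const.div continuous_nrm.measurable

theorem inv_nrm_le (x : P3) : 1 / nrm x ≤ ‖x‖ ^ (-1 : ℝ) := by
  rw [Real.rpow_neg_one]
  by_cases hx : x = 0
  · subst hx
    simp [nrm]
  · rw [one_div]
    exact inv_anti₀ (norm_pos_iff.2 hx) (norm_le_nrm x)

theorem locallyIntegrable_inv_nrm : LocallyIntegrable (fun x : P3 => 1 / nrm x) volume := by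
  refine locallyIntegrable_of_norm_le_rpow (C := 1) (α := 1) (by simp) (by simp) ?_
    measurable_inv_nrm.aestronglyMeasurable
  refine Filter.Eventually.of_forall fun x => ?_
  rw [Real.norm_of_nonneg (inv_nrm_nonneg x), one_mul]
  exact inv_nrm_le x

/-- The Coulomb kernel against the product of a bounded function with bounded support and an
integrable function with bounded support. -/
theorem integrable_coulomb2 {a b : P3 → ℝ} {M R : ℝ} (ha : AEStronglyMeasurable a volume)
    (haM : ∀ x, |a x| ≤ M) (haR : ∀ x, a x ≠ 0 → ‖x‖ ≤ R) (hb : Integrable b)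
    (hbR : ∀ x, b x ≠ 0 → ‖x‖ ≤ R) :
    Integrable fun p : P3 × P3 => 1 / nrm (p.1 - p.2) * (a p.1 * b p.2) := by
  have hg : Integrable ((Metric.closedBall (0 : P3) (2 * R)).indicator fun x => 1 / nrm x) :=
    (integrable_indicator_iff measurableSet_closedBall).2
      (locallyIntegrable_inv_nrm.integrableOn_isCompact (isCompact_closedBall _ _))
  have h1 := (hb.norm.convolution_integrand (ContinuousLinearMap.mul ℝ ℝ) hg).const_mul M
  refine Integrable.mono' h1 ?_ (Filter.Eventually.of_forall fun p => ?_)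
  · refine AEStronglyMeasurable.mul ?_ (ha.comp_fst.mul hb.aestronglyMeasurable.comp_snd)
    exact (measurable_inv_nrm.comp (measurable_fst.sub measurable_snd)).aestronglyMeasurable
  · have hM : 0 ≤ M := (abs_nonneg _).trans (haM 0)
    simp only [ContinuousLinearMap.mul_apply', Real.norm_eq_abs, abs_mul]
    by_cases h : a p.1 = 0
    · rw [h, abs_zero, zero_mul, mul_zero]
      refine mul_nonneg hM (mul_nonneg (abs_nonneg _) ?_)
      exact Set.indicator_nonneg (fun x _ => inv_nrm_nonneg x) _
    by_cases h' : b p.2 = 0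
    · rw [h', abs_zero]
      simp
    have hmem : p.1 - p.2 ∈ Metric.closedBall (0 : P3) (2 * R) := by
      rw [mem_closedBall_zero_iff]
      have := norm_sub_le p.1 p.2
      linarith [haR _ h, hbR _ h']
    rw [Set.indicator_of_mem hmem, abs_of_nonneg (inv_nrm_nonneg _)]
    have h3 := inv_nrm_nonneg (p.1 - p.2)
    have h4 := abs_nonneg (b p.2)
    calc 1 / nrm (p.1 - p.2) * (|a p.1| * |b p.2|)
        ≤ 1 / nrm (p.1 - p.2) * (M * |b p.2|) := by gcongr; exact haM _
      _ = M * (|b p.2| * (1 / nrm (p.1 - p.2))) := by ring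

/-! ### Splitting off two coordinates -/

section Pair

variable {ι X : Type} [Fintype ι] [DecidableEq ι] [MeasureSpace X]
  [SigmaFinite (volume : Measure X)]

/-- The two-element set `{i, j}`. -/
def pairEquiv {i j : ι} (h : i ≠ j) : {k : ι // k = i ∨ k = j} ≃ Fin 2 where
  toFun k := if k.1 = i then 0 else 1
  invFun a := if a = 0 then ⟨i, Or.inl rfl⟩ else ⟨j, Or.inr rfl⟩
  left_inv := by
    rintro ⟨k, rfl | rfl⟩
    · simp
    · simp [h.symm]
  right_inv := by
    intro a
    fin_cases a
    · simp
    · simp [h.symm]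

/-- The splitting `x ↦ ((x i, x j), rest)`. -/
def pairSplit {i j : ι} (h : i ≠ j) :
    (ι → X) ≃ᵐ (X × X) × ({k : ι // ¬ (k = i ∨ k = j)} → X) :=
  (MeasurableEquiv.piEquivPiSubtypeProd (fun _ => X) (fun k => k = i ∨ k = j)).trans
    (MeasurableEquiv.prodCongr
      ((MeasurableEquiv.arrowCongr' (pairEquiv h) (MeasurableEquiv.refl X)).trans
        MeasurableEquiv.finTwoArrow) (MeasurableEquiv.refl _))

omit [Fintype ι] [SigmaFinite (volume : Measure X)] in
theorem pairSplit_apply {i j : ι} (h : i ≠ j) (x : ι → X) :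
    pairSplit h x = ((x i, x j), fun k => x k.1) := rfl

theorem mp_pairSplit {i j : ι} (h : i ≠ j) : MeasurePreserving (pairSplit (X := X) h) := by
  have h1 := volume_preserving_piEquivPiSubtypeProd (fun _ : ι => X) (fun k => k = i ∨ k = j)
  have h2 : MeasurePreserving
      ((MeasurableEquiv.arrowCongr' (pairEquiv h) (MeasurableEquiv.refl X)).trans
        MeasurableEquiv.finTwoArrow) :=
    (volume_preserving_arrowCongr' (pairEquiv h) (MeasurableEquiv.refl X)
      (MeasurePreserving.id _)).trans (volume_preserving_finTwoArrow X)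
  exact h1.trans (h2.prod (MeasurePreserving.id _))

omit [MeasureSpace X] [SigmaFinite (volume : Measure X)] in
theorem prod_rest (i j : ι) (a : ι → ℝ) :
    ∏ k : {k : ι // ¬ (k = i ∨ k = j)}, a k.1 = ∏ k ∈ (univ.erase i).erase j, a k := by
  symm
  refine Finset.prod_subtype _ (fun k => ?_) _
  simp only [mem_erase, mem_univ, and_true, not_or, ne_eq]
  tauto

theorem integrable_pair {i j : ι} (h : i ≠ j) {w : X × X → ℝ} (hw : Integrable w)
    {a : ι → X → ℝ} (ha : ∀ k, k ≠ i → k ≠ j → Integrable (a k)) :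
    Integrable fun x : ι → X => w (x i, x j) * ∏ k ∈ (univ.erase i).erase j, a k (x k) := by
  have h1 : Integrable fun y : {k : ι // ¬ (k = i ∨ k = j)} → X => ∏ k, a k.1 (y k) :=
    Integrable.fintype_prod (f := fun k : {k : ι // ¬ (k = i ∨ k = j)} => a k.1)
      fun k => ha k.1 (fun e => k.2 (Or.inl e)) (fun e => k.2 (Or.inr e))
  have h2 := ((mp_pairSplit (X := X) h).integrable_comp_emb
    (pairSplit h).measurableEmbedding).2 (hw.mul_prod h1)
  refine h2.congr (Filter.Eventually.of_forall fun x => ?_)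
  simp only [Function.comp, pairSplit_apply]
  rw [prod_rest i j fun k => a k (x k)]

theorem integral_pair {i j : ι} (h : i ≠ j) (w : X × X → ℝ) (a : ι → X → ℝ) :
    ∫ x : ι → X, w (x i, x j) * ∏ k ∈ (univ.erase i).erase j, a k (x k) =
      (∫ p, w p) * ∏ k ∈ (univ.erase i).erase j, ∫ y, a k y := by
  have h2 := (mp_pairSplit (X := X) h).integral_comp'
    (fun q : (X × X) × ({k : ι // ¬ (k = i ∨ k = j)} → X) => w q.1 * ∏ k, a k.1 (q.2 k))
  rw [← prod_rest i j fun k => ∫ y, a k y,
    ← integral_fintype_prod_volume_eq_prod (fun k : {k : ι // ¬ (k = i ∨ k = j)} => a k.1),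
    ← integral_prod_mul]
  refine Eq.trans ?_ h2
  refine integral_congr_ae (Filter.Eventually.of_forall fun x => ?_)
  simp only [pairSplit_apply]
  rw [prod_rest i j fun k => a k (x k)]

omit [MeasureSpace X] [SigmaFinite (volume : Measure X)] in
theorem prod_eq_pair {i j : ι} (h : i ≠ j) (a : ι → ℝ) :
    ∏ k, a k = a i * a j * ∏ k ∈ (univ.erase i).erase j, a k := by
  rw [← mul_prod_erase univ a (mem_univ i),
    ← mul_prod_erase (univ.erase i) a (mem_erase.2 ⟨h.symm, mem_univ j⟩), mul_assoc]

end Pair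

/-! ### Bounded functions with bounded support on the configuration space -/

section Conf

variable {ι : Type} [Fintype ι] [DecidableEq ι]

/-- The indicator of the ball of radius `R`. -/
def ballInd (R : ℝ) (x : P3) : ℝ := (Metric.closedBall (0 : P3) R).indicator 1 x

theorem integrable_ballInd (R : ℝ) : Integrable (ballInd R) :=
  (integrable_indicator_iff measurableSet_closedBall).2
    (integrableOn_const (measure_closedBall_lt_top.ne))

theorem ballInd_nonneg (R : ℝ) (x : P3) : 0 ≤ ballInd R x :=
  Set.indicator_nonneg (fun _ _ => zero_le_one) _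

theorem abs_ballInd_le (R : ℝ) (x : P3) : |ballInd R x| ≤ 1 := by
  unfold ballInd
  by_cases h : x ∈ Metric.closedBall (0 : P3) R
  · simp [Set.indicator_of_mem h]
  · simp [Set.indicator_of_notMem h]

theorem ballInd_supp (R : ℝ) (x : P3) (h : ballInd R x ≠ 0) : ‖x‖ ≤ R :=
  mem_closedBall_zero_iff.1 (Set.mem_of_indicator_ne_zero h)

theorem ballInd_eq_one {R : ℝ} {x : P3} (h : ‖x‖ ≤ R) : ballInd R x = 1 :=
  Set.indicator_of_mem (mem_closedBall_zero_iff.2 h) _

omit [DecidableEq ι] in
theorem abs_le_prod_ballInd {F : (ι → P3) → ℝ} {M R : ℝ} (hM : ∀ x, |F x| ≤ M)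
    (hR : ∀ x, F x ≠ 0 → ∀ k, ‖x k‖ ≤ R) (x : ι → P3) :
    |F x| ≤ M * ∏ k, ballInd R (x k) := by
  by_cases h : F x = 0
  · rw [h, abs_zero]
    exact mul_nonneg ((abs_nonneg _).trans (hM x)) (prod_nonneg fun k _ => ballInd_nonneg _ _)
  · rw [prod_eq_one fun k _ => ballInd_eq_one (hR x h k), mul_one]
    exact hM x

/-- The Coulomb repulsion of two particles against a bounded function with bounded support. -/
theorem integrable_coulomb {i j : ι} (h : i ≠ j) {F : (ι → P3) → ℝ} {M R : ℝ}
    (hF : AEStronglyMeasurable F volume) (hM : ∀ x, |F x| ≤ M)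
    (hR : ∀ x, F x ≠ 0 → ∀ k, ‖x k‖ ≤ R) :
    Integrable fun x : ι → P3 => 1 / nrm (x i - x j) * F x := by
  have h1 := integrable_coulomb2 (integrable_ballInd R).aestronglyMeasurable (abs_ballInd_le R)
    (ballInd_supp R) (integrable_ballInd R) (ballInd_supp R)
  have h2 := (integrable_pair h h1 (a := fun _ => ballInd R)
    fun _ _ _ => integrable_ballInd R).const_mul M
  refine Integrable.mono' h2 ?_ (Filter.Eventually.of_forall fun x => ?_)
  · refine AEStronglyMeasurable.mul ?_ hF
    exact (measurable_inv_nrm.comp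
      ((measurable_pi_apply i).sub (measurable_pi_apply j))).aestronglyMeasurable
  · rw [Real.norm_eq_abs, abs_mul, abs_of_nonneg (inv_nrm_nonneg _)]
    have h3 := abs_le_prod_ballInd hM hR x
    rw [prod_eq_pair h] at h3
    calc 1 / nrm (x i - x j) * |F x| ≤ 1 / nrm (x i - x j) * (M * (ballInd R (x i) *
          ballInd R (x j) * ∏ k ∈ (univ.erase i).erase j, ballInd R (x k))) :=
          mul_le_mul_of_nonneg_left h3 (inv_nrm_nonneg _)
      _ = _ := by ring

/-- A locally integrable one-body potential against a bounded function with bounded support. -/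
theorem integrable_pot {V : P3 → ℝ} (hV : PotOK V) (i : ι) {F : (ι → P3) → ℝ} {M R : ℝ}
    (hF : AEStronglyMeasurable F volume) (hM : ∀ x, |F x| ≤ M)
    (hR : ∀ x, F x ≠ 0 → ∀ k, ‖x k‖ ≤ R) :
    Integrable fun x : ι → P3 => V (x i) * F x := by
  have h0 : Integrable fun y => |V y| * ballInd R y := by
    have h1 : Integrable ((Metric.closedBall (0 : P3) R).indicator fun y => |V y|) :=
      (integrable_indicator_iff measurableSet_closedBall).2
        (hV.2.integrableOn_isCompact (isCompact_closedBall _ _)).abs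
    refine h1.congr (Filter.Eventually.of_forall fun y => ?_)
    unfold ballInd
    by_cases h : y ∈ Metric.closedBall (0 : P3) R
    · simp [Set.indicator_of_mem h]
    · simp [Set.indicator_of_notMem h]
  have h2 : Integrable fun x : ι → P3 =>
      ∏ k, (if k = i then fun y => |V y| * ballInd R y else ballInd R) (x k) := by
    refine Integrable.fintype_prod
      (f := fun k => if k = i then fun y => |V y| * ballInd R y else ballInd R) fun k => ?_
    split_ifs
    · exact h0
    · exact integrable_ballInd R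
  refine Integrable.mono' (h2.const_mul M) ?_ (Filter.Eventually.of_forall fun x => ?_)
  · exact (hV.1.comp (measurable_pi_apply i)).aestronglyMeasurable.mul hF
  · have h3 := abs_le_prod_ballInd hM hR x
    have h4 : ∏ k, (if k = i then fun y => |V y| * ballInd R y else ballInd R) (x k) =
        |V (x i)| * ∏ k, ballInd R (x k) := by
      rw [← mul_prod_erase univ _ (mem_univ i), ← mul_prod_erase univ _ (mem_univ i), if_pos rfl,
        ← mul_assoc]
      congr 1
      exact prod_congr rfl fun k hk => by rw [if_neg (ne_of_mem_erase hk)]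
    rw [h4, Real.norm_eq_abs, abs_mul]
    calc |V (x i)| * |F x| ≤ |V (x i)| * (M * ∏ k, ballInd R (x k)) :=
          mul_le_mul_of_nonneg_left h3 (abs_nonneg _)
      _ = _ := by ring

omit [DecidableEq ι] in
/-- A continuous function with compact support is bounded and has bounded support. -/
theorem exists_bound {F : (ι → P3) → ℝ} (hF : Continuous F) (hc : HasCompactSupport F) :
    ∃ M R : ℝ, (∀ x, |F x| ≤ M) ∧ ∀ x, F x ≠ 0 → ∀ k, ‖x k‖ ≤ R := by
  obtain ⟨M, hM⟩ := hF.bounded_above_of_compact_support hc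
  obtain ⟨R, hR⟩ := hc.isCompact.isBounded.exists_norm_le
  exact ⟨M, R, hM, fun x hx k => (norm_le_pi_norm x k).trans (hR x (subset_tsupport _ hx))⟩

theorem exists_bound1 {F : P3 → ℝ} (hF : Continuous F) (hc : HasCompactSupport F) :
    ∃ M R : ℝ, (∀ x, |F x| ≤ M) ∧ ∀ x, F x ≠ 0 → ‖x‖ ≤ R := by
  obtain ⟨M, hM⟩ := hF.bounded_above_of_compact_support hc
  obtain ⟨R, hR⟩ := hc.isCompact.isBounded.exists_norm_le
  exact ⟨M, R, hM, fun x hx => hR x (subset_tsupport _ hx)⟩

theorem integrable_coulomb_cc {i j : ι} (h : i ≠ j) {F : (ι → P3) → ℝ} (hF : Continuous F)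
    (hc : HasCompactSupport F) : Integrable fun x : ι → P3 => 1 / nrm (x i - x j) * F x := by
  obtain ⟨M, R, hM, hR⟩ := exists_bound hF hc
  exact integrable_coulomb h hF.aestronglyMeasurable hM hR

theorem integrable_pot_cc {V : P3 → ℝ} (hV : PotOK V) (i : ι) {F : (ι → P3) → ℝ}
    (hF : Continuous F) (hc : HasCompactSupport F) :
    Integrable fun x : ι → P3 => V (x i) * F x := by
  obtain ⟨M, R, hM, hR⟩ := exists_bound hF hc
  exact integrable_pot hV i hF.aestronglyMeasurable hM hR

theorem integrable_coulomb2_cc {a b : P3 → ℝ} (ha : Continuous a) (hac : HasCompactSupport a)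
    (hb : Continuous b) (hbc : HasCompactSupport b) :
    Integrable fun p : P3 × P3 => 1 / nrm (p.1 - p.2) * (a p.1 * b p.2) := by
  obtain ⟨M, R, hM, hR⟩ := exists_bound1 ha hac
  obtain ⟨M', R', -, hR'⟩ := exists_bound1 hb hbc
  exact integrable_coulomb2 (R := max R R') ha.aestronglyMeasurable hM
    (fun x hx => (hR x hx).trans (le_max_left _ _)) (hb.integrable_of_hasCompactSupport hbc)
    fun x hx => (hR' x hx).trans (le_max_right _ _)

theorem integrable_pot1_cc {V : P3 → ℝ} (hV : PotOK V) {a : P3 → ℝ} (ha : Continuous a)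
    (hc : HasCompactSupport a) : Integrable fun x => V x * a x := by
  have := hV.2.integrable_smul_right_of_hasCompactSupport ha hc
  simpa only [smul_eq_mul] using this

end Conf

/-- The repulsion against a continuous function with compact support. -/
theorem integrable_rep_cc {N : ℕ} {F : Cf N → ℝ} (hF : Continuous F) (hc : HasCompactSupport F) :
    Integrable fun x : Cf N => rep x * F x := by
  have : (fun x : Cf N => rep x * F x) =
      fun x => ∑ i, ∑ j ∈ Ioi i, 1 / nrm (x i - x j) * F x := by
    funext x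
    simp only [rep, sum_mul]
  rw [this]
  exact integrable_finsetSum _ fun i _ => integrable_finsetSum _ fun j hj =>
    integrable_coulomb_cc (mem_Ioi.1 hj).ne hF hc

theorem rep_nonneg {N : ℕ} (x : Cf N) : 0 ≤ rep x :=
  sum_nonneg fun _ _ => sum_nonneg fun _ _ => inv_nrm_nonneg _

theorem C1c.continuous {E : Type*} [NormedAddCommGroup E] [NormedSpace ℝ E] {f : E → ℝ}
    (h : C1c f) : Continuous f := h.1.continuous

theorem continuous_pd {u : P3 → ℝ} (h : C1c u) (k : Fin 3) : Continuous (pd k u) :=
  (h.1.continuous_fderiv one_ne_zero).clm_apply continuous_const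

theorem hasCompactSupport_pd {u : P3 → ℝ} (h : C1c u) (k : Fin 3) : HasCompactSupport (pd k u) :=
  h.2.fderiv_apply ℝ _

theorem continuous_pdN {N : ℕ} {Ψ : Cf N → ℝ} (h : C1c Ψ) (i : Fin N) (k : Fin 3) :
    Continuous (pdN i k Ψ) :=
  (h.1.continuous_fderiv one_ne_zero).clm_apply continuous_const

theorem hasCompactSupport_pdN {N : ℕ} {Ψ : Cf N → ℝ} (h : C1c Ψ) (i : Fin N) (k : Fin 3) :
    HasCompactSupport (pdN i k Ψ) :=
  h.2.fderiv_apply ℝ _

/-- The energy of one spin component splits into kinetic, potential and repulsion terms. -/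
theorem integral_pot_rep {N : ℕ} {V : P3 → ℝ} (hV : PotOK V) (g : ℝ) {F : Cf N → ℝ}
    (hF : Continuous F) (hc : HasCompactSupport F) :
    ∫ x, ((∑ i, V (x i)) + g * rep x) * F x =
      (∑ i, ∫ x, V (x i) * F x) + g * ∑ i, ∑ j ∈ Ioi i, ∫ x, 1 / nrm (x i - x j) * F x := by
  have h1 : ∀ i, Integrable fun x : Cf N => V (x i) * F x := fun i => integrable_pot_cc hV i hF hc
  have h2 : ∀ i, ∀ j ∈ Ioi i, Integrable fun x : Cf N => 1 / nrm (x i - x j) * F x :=
    fun i j hj => integrable_coulomb_cc (mem_Ioi.1 hj).ne hF hc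
  have h3 : (fun x : Cf N => ((∑ i, V (x i)) + g * rep x) * F x) = fun x =>
      (∑ i, V (x i) * F x) + g * ∑ i, ∑ j ∈ Ioi i, 1 / nrm (x i - x j) * F x := by
    funext x
    simp only [rep, add_mul, sum_mul, mul_assoc]
  rw [h3, integral_add (integrable_finsetSum _ fun i _ => h1 i)
    ((integrable_finsetSum _ fun i _ => integrable_finsetSum _ (h2 i)).const_mul g),
    integral_const_mul, integral_finsetSum _ fun i _ => h1 i,
    integral_finsetSum _ fun i _ => integrable_finsetSum _ (h2 i)]
  congr 2
  exact sum_congr rfl fun i _ => integral_finsetSum _ (h2 i)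

end

end Vale.Agent.P370Z.MB
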