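import Vale.Agent.P370Z.MB.Integr

/-!
# P370, many-body block: finite tensors and product wave functions
-/

namespace Vale.Agent.P370Z.MB

open MeasureTheory Finset

noncomputable section

section Fin

variable {ι L : Type} [Fintype ι] [DecidableEq ι] [Fintype L] [DecidableEq L]

omit [Fintype L] in
theorem idm_symm (a b : L) : idm a b = idm b a := by
  unfold idm
  by_cases h : a = b
  · rw [if_pos h, if_pos h.symm]
  · rw [if_neg h, if_neg (Ne.symm h)]

omit [Fintype L] in
theorem idm_nonneg (a b : L) : 0 ≤ idm a b := by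
  unfold idm
  split_ifs <;> norm_num

theorem sum_idm (a : L) : ∑ b, idm a b = 1 := by
  simp [idm]

theorem sum_abs_idm (a : L) : ∑ b, |idm a b| = 1 := by
  simp only [abs_of_nonneg (idm_nonneg _ _), sum_idm]

theorem sum_abs_idm' (b : L) : ∑ a, |idm a b| = 1 := by
  simp only [idm_symm _ b, sum_abs_idm]

omit [DecidableEq ι] [Fintype L] in
theorem prod_idm (l l' : ι → L) [Decidable (l = l')] :
    ∏ k, idm (l k) (l' k) = if l = l' then 1 else 0 := by
  by_cases h : l = l'
  · subst h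
    simp [idm]
  · rw [if_neg h]
    obtain ⟨k, hk⟩ := Function.ne_iff.1 h
    exact prod_eq_zero (mem_univ k) (if_neg hk)

theorem tens_idm (c : (ι → L) → ℝ) : tens (fun _ => idm) c c = nsqT c := by
  unfold tens nsqT
  refine sum_congr rfl fun l _ => ?_
  simp only [prod_idm, mul_ite, mul_one, mul_zero, sum_ite_eq, mem_univ, if_true, sq]

omit [DecidableEq L] in
theorem nsqT_nonneg (c : (ι → L) → ℝ) : 0 ≤ nsqT c := sum_nonneg fun _ _ => sq_nonneg _

omit [DecidableEq L] in
theorem sum_prod_eq (h : ι → L → ℝ) : ∑ l : ι → L, ∏ k, h k (l k) = ∏ k, ∑ a, h k a := by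
  rw [prod_univ_sum, Fintype.piFinset_univ]

omit [DecidableEq L] in
/-- The Schur test. -/
theorem abs_tens_le (M : ι → L → L → ℝ) (R : ι → ℝ) (hrow : ∀ k a, ∑ b, |M k a b| ≤ R k)
    (hcol : ∀ k b, ∑ a, |M k a b| ≤ R k) (c : (ι → L) → ℝ) :
    |tens M c c| ≤ (∏ k, R k) * nsqT c := by
  have h1 : ∀ l : ι → L, ∑ l' : ι → L, ∏ k, |M k (l k) (l' k)| ≤ ∏ k, R k := fun l => by
    rw [sum_prod_eq fun k b => |M k (l k) b|]
    exact prod_le_prod (fun k _ => sum_nonneg fun _ _ => abs_nonneg _) fun k _ => hrow k _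
  have h2 : ∀ l' : ι → L, ∑ l : ι → L, ∏ k, |M k (l k) (l' k)| ≤ ∏ k, R k := fun l' => by
    rw [sum_prod_eq fun k a => |M k a (l' k)|]
    exact prod_le_prod (fun k _ => sum_nonneg fun _ _ => abs_nonneg _) fun k _ => hcol k _
  have h3 : |tens M c c| ≤ ∑ l : ι → L, ∑ l' : ι → L,
      (c l ^ 2 / 2 * ∏ k, |M k (l k) (l' k)| + c l' ^ 2 / 2 * ∏ k, |M k (l k) (l' k)|) := by
    refine (abs_sum_le_sum_abs _ _).trans (sum_le_sum fun l _ => ?_)
    refine (abs_sum_le_sum_abs _ _).trans (sum_le_sum fun l' _ => ?_)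
    rw [abs_mul, abs_prod, ← add_mul]
    refine mul_le_mul_of_nonneg_right ?_ (prod_nonneg fun _ _ => abs_nonneg _)
    rw [abs_mul]
    nlinarith [sq_nonneg (|c l| - |c l'|), sq_abs (c l), sq_abs (c l')]
  refine h3.trans ?_
  simp only [sum_add_distrib]
  rw [sum_comm (f := fun l l' : ι → L => c l' ^ 2 / 2 * ∏ k, |M k (l k) (l' k)|)]
  simp only [← mul_sum]
  have h4 : ∑ l : ι → L, c l ^ 2 / 2 * ∑ l' : ι → L, ∏ k, |M k (l k) (l' k)| ≤
      ∑ l : ι → L, c l ^ 2 / 2 * ∏ k, R k :=
    sum_le_sum fun l _ => mul_le_mul_of_nonneg_left (h1 l) (by positivity)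
  have h5 : ∑ l' : ι → L, c l' ^ 2 / 2 * ∑ l : ι → L, ∏ k, |M k (l k) (l' k)| ≤
      ∑ l : ι → L, c l ^ 2 / 2 * ∏ k, R k :=
    sum_le_sum fun l _ => mul_le_mul_of_nonneg_left (h2 l) (by positivity)
  have h6 : ∑ l : ι → L, c l ^ 2 / 2 * ∏ k, R k = (∏ k, R k) * nsqT c / 2 := by
    rw [nsqT, mul_sum, sum_div]
    exact sum_congr rfl fun l _ => by ring
  linarith

/-- `A` at the place `i`, the identity elsewhere. -/
def one (i : ι) (A : L → L → ℝ) (k : ι) : L → L → ℝ := if k = i then A else idm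

omit [Fintype L] in
theorem prod_one (i : ι) (A : L → L → ℝ) (l l' : ι → L) :
    ∏ k, one i A k (l k) (l' k) = A (l i) (l' i) * ∏ k ∈ univ.erase i, idm (l k) (l' k) := by
  rw [← mul_prod_erase univ _ (mem_univ i)]
  congr 1
  · simp [one]
  · exact prod_congr rfl fun k hk => by simp [one, ne_of_mem_erase hk]

omit [Fintype L] in
theorem prod_two {i j : ι} (h : i ≠ j) (A A' : L → L → ℝ) (l l' : ι → L) :
    ∏ k, two i j A A' k (l k) (l' k) =
      A (l i) (l' i) * A' (l j) (l' j) * ∏ k ∈ (univ.erase i).erase j, idm (l k) (l' k) := by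
  rw [prod_eq_pair h]
  congr 1
  · simp [two, h.symm]
  · refine prod_congr rfl fun k hk => ?_
    have h1 := ne_of_mem_erase hk
    have h2 := ne_of_mem_erase (mem_of_mem_erase hk)
    simp [two, h1, h2]

theorem tens_one (i : ι) (A : L → L → ℝ) (c c' : (ι → L) → ℝ) : tens (one i A) c c' =
    ∑ l, ∑ l', c l * c' l' * (A (l i) (l' i) * ∏ k ∈ univ.erase i, idm (l k) (l' k)) := by
  simp only [tens, prod_one]

theorem tens_two {i j : ι} (h : i ≠ j) (A A' : L → L → ℝ) (c c' : (ι → L) → ℝ) :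
    tens (two i j A A') c c' = ∑ l, ∑ l', c l * c' l' *
      (A (l i) (l' i) * A' (l j) (l' j) * ∏ k ∈ (univ.erase i).erase j, idm (l k) (l' k)) := by
  simp only [tens, prod_two h]

theorem abs_tens_one_le (i : ι) (A : L → L → ℝ) {ε : ℝ} (hA : ∀ a b, |A a b| ≤ ε)
    (c : (ι → L) → ℝ) : |tens (one i A) c c| ≤ Fintype.card L * ε * nsqT c := by
  have h := abs_tens_le (one i A) (fun k => if k = i then Fintype.card L * ε else 1)
    (fun k a => ?_) (fun k b => ?_) c
  · rwa [prod_ite_eq', if_pos (mem_univ i)] at h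
  · unfold one
    split_ifs
    · exact (sum_le_sum fun b _ => hA a b).trans (by simp)
    · exact (sum_abs_idm a).le
  · unfold one
    split_ifs
    · exact (sum_le_sum fun a _ => hA a b).trans (by simp)
    · exact (sum_abs_idm' b).le

theorem abs_tens_two_le {i j : ι} (h : i ≠ j) (A A' : L → L → ℝ) {ε ε' : ℝ}
    (hA : ∀ a b, |A a b| ≤ ε) (hA' : ∀ a b, |A' a b| ≤ ε') (c : (ι → L) → ℝ) :
    |tens (two i j A A') c c| ≤ (Fintype.card L : ℝ) ^ 2 * (ε * ε') * nsqT c := by
  have h1 := abs_tens_le (two i j A A')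
    (fun k => if k = i then Fintype.card L * ε else if k = j then Fintype.card L * ε' else 1)
    (fun k a => ?_) (fun k b => ?_) c
  · rw [prod_eq_pair h, if_pos rfl, if_neg h.symm, if_pos rfl, prod_eq_one] at h1
    · refine h1.trans (le_of_eq ?_)
      ring
    · intro k hk
      rw [if_neg (ne_of_mem_erase (mem_of_mem_erase hk)), if_neg (ne_of_mem_erase hk)]
  · unfold two
    split_ifs
    · exact (sum_le_sum fun b _ => hA a b).trans (by simp)
    · exact (sum_le_sum fun b _ => hA' a b).trans (by simp)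
    · exact (sum_abs_idm a).le
  · unfold two
    split_ifs
    · exact (sum_le_sum fun a _ => hA a b).trans (by simp)
    · exact (sum_le_sum fun a _ => hA' a b).trans (by simp)
    · exact (sum_abs_idm' b).le

/-- Perturbation of the two matrices of a two-body form. -/
theorem abs_tens_two_sub_le {i j : ι} (h : i ≠ j) (A A' B B' : L → L → ℝ) {ε : ℝ}
    (hε1 : ε ≤ 1) (hA : ∀ a b, |A a b - B a b| ≤ ε) (hA' : ∀ a b, |A' a b - B' a b| ≤ ε)
    (hB : ∀ a b, |B a b| ≤ 1) (hB' : ∀ a b, |B' a b| ≤ 1) (c : (ι → L) → ℝ) :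
    |tens (two i j A A') c c - tens (two i j B B') c c| ≤
      3 * (Fintype.card L : ℝ) ^ 2 * ε * nsqT c := by
  have h1 : tens (two i j A A') c c - tens (two i j B B') c c =
      tens (two i j (fun a b => A a b - B a b) A') c c +
        tens (two i j B (fun a b => A' a b - B' a b)) c c := by
    simp only [tens_two h, ← sum_sub_distrib, ← sum_add_distrib]
    exact sum_congr rfl fun l _ => sum_congr rfl fun l' _ => by ring
  have h2 : ∀ a b, |A' a b| ≤ 2 := fun a b => by
    have := abs_sub_abs_le_abs_sub (A' a b) (B' a b)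
    linarith [hA' a b, hB' a b]
  have h3 := abs_tens_two_le h _ _ hA h2 c
  have h4 := abs_tens_two_le h _ _ hB hA' c
  rw [h1]
  refine (abs_add_le _ _).trans ((add_le_add h3 h4).trans (le_of_eq ?_))
  ring

end Fin

/-! ### Product wave functions -/

section Wave

variable {ι L : Type} [Fintype ι] [DecidableEq ι] [Fintype L]

/-- The wave function with orbitals `g k μ` at the place `k` and coefficients `c`. -/
def wv (g : ι → L → P3 → ℝ) (c : (ι → L) → ℝ) (x : ι → P3) : ℝ :=
  ∑ l, c l * ∏ k, g k (l k) (x k)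

theorem wv_mul (w : (ι → P3) → ℝ) (g : ι → L → P3 → ℝ) (c c' : (ι → L) → ℝ) (x : ι → P3) :
    w x * (wv g c x * wv g c' x) =
      ∑ l, ∑ l', c l * c' l' * (w x * ∏ k, g k (l k) (x k) * g k (l' k) (x k)) := by
  unfold wv
  rw [sum_mul_sum, mul_sum]
  refine sum_congr rfl fun l _ => ?_
  rw [mul_sum]
  refine sum_congr rfl fun l' _ => ?_
  rw [prod_mul_distrib]
  ring

theorem integral_wv_of (w : (ι → P3) → ℝ) (g : ι → L → P3 → ℝ) (c c' : (ι → L) → ℝ)
    (h : ∀ l l' : ι → L, Integrable fun x : ι → P3 =>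
      w x * ∏ k, g k (l k) (x k) * g k (l' k) (x k)) :
    ∫ x, w x * (wv g c x * wv g c' x) =
      ∑ l, ∑ l', c l * c' l' * ∫ x, w x * ∏ k, g k (l k) (x k) * g k (l' k) (x k) := by
  simp only [wv_mul]
  rw [integral_finsetSum _ fun l _ => integrable_finsetSum _ fun l' _ => (h l l').const_mul _]
  refine sum_congr rfl fun l _ => ?_
  rw [integral_finsetSum _ fun l' _ => (h l l').const_mul _]
  exact sum_congr rfl fun l' _ => integral_const_mul _ _

/-- Product weights. -/
theorem integral_wv (w : ι → P3 → ℝ) (g : ι → L → P3 → ℝ) (c c' : (ι → L) → ℝ)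
    (h : ∀ k μ ν, Integrable fun y => w k y * (g k μ y * g k ν y)) :
    ∫ x, (∏ k, w k (x k)) * (wv g c x * wv g c' x) =
      tens (fun k μ ν => ∫ y, w k y * (g k μ y * g k ν y)) c c' := by
  rw [integral_wv_of (fun x => ∏ k, w k (x k))]
  · refine sum_congr rfl fun l _ => sum_congr rfl fun l' _ => ?_
    congr 1
    simp only [← prod_mul_distrib]
    exact integral_fintype_prod_volume_eq_prod
      fun k y => w k y * (g k (l k) y * g k (l' k) y)
  · intro l l'
    simp only [← prod_mul_distrib]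
    exact Integrable.fintype_prod (f := fun k y => w k y * (g k (l k) y * g k (l' k) y))
      fun k => h k _ _

theorem continuous_wv {g : ι → L → P3 → ℝ} (hg : ∀ k μ, Continuous (g k μ)) (c : (ι → L) → ℝ) :
    Continuous (wv g c) :=
  continuous_finsetSum _ fun l _ => continuous_const.mul
    (continuous_finsetProd _ fun k _ => (hg k (l k)).comp (continuous_apply k))

omit [DecidableEq ι] in
theorem hasCompactSupport_prod {a : ι → P3 → ℝ} (ha : ∀ k, HasCompactSupport (a k)) :
    HasCompactSupport fun x : ι → P3 => ∏ k, a k (x k) := by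
  refine HasCompactSupport.intro (isCompact_univ_pi fun k => (ha k).isCompact) fun x hx => ?_
  simp only [Set.mem_pi, Set.mem_univ, forall_const, not_forall] at hx
  obtain ⟨k, hk⟩ := hx
  exact prod_eq_zero (mem_univ k) (image_eq_zero_of_notMem_tsupport hk)

theorem hasCompactSupport_wv {g : ι → L → P3 → ℝ} (hg : ∀ k μ, HasCompactSupport (g k μ))
    (c : (ι → L) → ℝ) : HasCompactSupport (wv g c) := by
  have h : ∀ l : ι → L, HasCompactSupport fun x : ι → P3 => c l * ∏ k, g k (l k) (x k) :=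
    fun l => (hasCompactSupport_prod fun k => hg k (l k)).mul_left
  have h2 : wv g c = ∑ l, fun x : ι → P3 => c l * ∏ k, g k (l k) (x k) := by
    funext x
    simp [wv]
  rw [h2]
  exact HasCompactSupport.finset_sum fun l _ => h l

theorem contDiff_wv {g : ι → L → P3 → ℝ} (hg : ∀ k μ, ContDiff ℝ 1 (g k μ)) (c : (ι → L) → ℝ) :
    ContDiff ℝ 1 (wv g c) :=
  ContDiff.sum fun l _ => contDiff_const.mul
    (contDiff_prod fun k _ => (hg k (l k)).comp (contDiff_apply ℝ P3 k))

theorem c1c_wv {g : ι → L → P3 → ℝ} (hg : ∀ k μ, C1c (g k μ)) (c : (ι → L) → ℝ) :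
    C1c (wv g c) :=
  ⟨contDiff_wv (fun k μ => (hg k μ).1) c, hasCompactSupport_wv (fun k μ => (hg k μ).2) c⟩

end Wave

/-- The derivative of a product wave function. -/
theorem pdN_wv {N : ℕ} {L : Type} [Fintype L] {g : Fin N → L → P3 → ℝ}
    (hg : ∀ k μ, Differentiable ℝ (g k μ)) (c : (Fin N → L) → ℝ) (i : Fin N) (a : Fin 3) :
    pdN i a (wv g c) = wv (fun k μ => if k = i then pd a (g k μ) else g k μ) c := by
  funext x
  have h1 : ∀ l : Fin N → L, HasFDerivAt (fun x : Cf N => c l * ∏ k, g k (l k) (x k))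
      (c l • ∑ k, (∏ m ∈ univ.erase k, g m (l m) (x m)) •
        (fderiv ℝ (g k (l k)) (x k)).comp (ContinuousLinearMap.proj (R := ℝ) k)) x := fun l =>
    (HasFDerivAt.finsetProd (u := univ) (g := fun k (x : Cf N) => g k (l k) (x k)) fun k _ =>
      ((hg k (l k)) (x k)).hasFDerivAt.comp x
        (ContinuousLinearMap.proj (R := ℝ) (φ := fun _ : Fin N => P3) k).hasFDerivAt).const_mul _
  have h2 : HasFDerivAt (wv g c) _ x := HasFDerivAt.fun_sum fun l (_ : l ∈ univ) => h1 l
  rw [pdN, h2.fderiv, wv]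
  simp only [_root_.sum_apply, _root_.smul_apply,
    ContinuousLinearMap.comp_apply, ContinuousLinearMap.proj_apply, smul_eq_mul]
  refine sum_congr rfl fun l _ => ?_
  congr 1
  rw [sum_eq_single i, ← mul_prod_erase univ _ (mem_univ i), if_pos rfl, Pi.single_eq_same,
    mul_comm]
  · congr 1
    exact prod_congr rfl fun k hk => by rw [if_neg (ne_of_mem_erase hk)]
  · intro k _ hk
    rw [Pi.single_eq_of_ne hk, map_zero, mul_zero]
  · intro h
    exact absurd (mem_univ i) h

/-- Antisymmetric coefficients give antisymmetric wave functions. -/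
theorem wv_perm {N : ℕ} {L : Type} [Fintype L] (f : L → P3 → ℝ) (c c' : (Fin N → L) → ℝ)
    (π : Equiv.Perm (Fin N)) (σ : ℝ) (h : ∀ l, c' (l ∘ π) = σ * c l) (x : Cf N) :
    wv (fun _ => f) c' (x ∘ π) = σ * wv (fun _ => f) c x := by
  unfold wv
  rw [mul_sum, ← Equiv.sum_comp (Equiv.arrowCongr π.symm (Equiv.refl L))]
  refine sum_congr rfl fun l _ => ?_
  have h1 : (Equiv.arrowCongr π.symm (Equiv.refl L)) l = l ∘ π := by
    funext k
    simp
  rw [h1, h, mul_assoc]
  congr 2
  exact Equiv.prod_comp π fun k => f (l k) (x k)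

end

end Vale.Agent.P370Z.MB
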